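import Vale.Agent.P147.H686.LnMain

open MeasureTheory Vale.Agent.P147 Vale.Agent.P147.Ln
open scoped ENNReal

namespace Vale.Agent.Results.P147.LargeNumbers

/-- **Zero-one law and law of large numbers** for random walk in an iid elliptic random
environment, in every dimension at least two. -/
theorem result (d : ℕ) (hd : 2 ≤ d) (μ : Measure (Row d)) [IsProbabilityMeasure μ]
    (hμ : Elliptic μ) :
    -- (1) the directional zero-one law
    (∀ v : Fin d → ℝ, annealed μ 0 (Escape v) = 0 ∨ annealed μ 0 (Escape v) = 1) ∧
    -- (2) the law of large numbers: the velocity exists and is deterministic, under the annealed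
    -- law and in almost every environment, from every starting point; if it is not zero, the
    -- directions of escape are exactly those with positive inner product with it
    (∃ w : Fin d → ℝ, HasProb μ (Speed w) 1 ∧
      (w ≠ 0 → ∀ v : Fin d → ℝ, annealed μ 0 (Escape v) = 1 ↔ 0 < ∑ i, w i * v i)) ∧
    -- (3) the trichotomy, annealed and quenched, from every starting point
    (∀ v : Fin d → ℝ, v ≠ 0 →
      (HasProb μ (Escape v) 1 ∧ HasProb μ (Escape (-v)) 0 ∧ HasProb μ (Oscillate v) 0) ∨
      (HasProb μ (Escape v) 0 ∧ HasProb μ (Escape (-v)) 1 ∧ HasProb μ (Oscillate v) 0) ∨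
      (HasProb μ (Escape v) 0 ∧ HasProb μ (Escape (-v)) 0 ∧ HasProb μ (Oscillate v) 1)) ∧
    -- (4) if some direction has escape with positive probability, then all invariant events of
    -- the path are trivial
    ((∃ v : Fin d → ℝ, annealed μ 0 (Escape v) ≠ 0) →
      ∀ B : Set (ℕ → Site d), MeasurableSet B →
        (∀ X : ℕ → Site d, (fun n => X (n + 1)) ∈ B ↔ X ∈ B) →
        (∀ (z : Site d) (X : ℕ → Site d), (fun n => X n + z) ∈ B ↔ X ∈ B) →
        HasProb μ B 0 ∨ HasProb μ B 1) := by
  refine ⟨fun v => Z.zero_one μ hd hμ v, velocity μ hd hμ, fun v hv => trichotomy μ hd hμ hv,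
    fun hex B hB hS hT => ?_⟩
  obtain ⟨v, hv⟩ := hex
  exact trivial_of_escape μ hd hμ hv hB (fun z X => hT z X) (fun X => hS X)

end Vale.Agent.Results.P147.LargeNumbers
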