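import Vale.Agent.P147.Bd3.B4

open MeasureTheory Filter Vale.Agent.P147
open scoped ENNReal

namespace Vale.Agent.Results.P147.Trichotomy

/-- The walk oscillates in the direction `v`: the upper limit of `X_n · v` is `+∞` and the lower
limit is `-∞`. -/
def Oscillate {d : ℕ} (v : Fin d → ℝ) : Set (ℕ → Site d) :=
  {X | (∀ K : ℝ, ∃ᶠ n in atTop, K ≤ Vale.Agent.P147.inner (X n) v) ∧
    ∀ K : ℝ, ∃ᶠ n in atTop, Vale.Agent.P147.inner (X n) v ≤ K}

/-- The event `E` has the deterministic probability `p`, whatever the starting point: under the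
annealed law, and under the quenched law in almost every environment. -/
def HasProb {d : ℕ} (μ : Measure (Row d)) (E : Set (ℕ → Site d)) (p : ℝ≥0∞) : Prop :=
  (∀ x : Site d, annealed μ x E = p) ∧ ∀ᵐ ω ∂(envLaw μ), ∀ x : Site d, quenched ω x E = p

section

open Vale.Agent.P147.Z

variable {d : ℕ} (μ : Measure (Row d)) [IsProbabilityMeasure μ]

lemma hasProb_zero {B : Set (ℕ → Site d)} (hB : MeasurableSet B) (hT : TInv B)
    (h : annealed μ 0 B = 0) : HasProb μ B 0 := by
  have h1 : ∀ x : Site d, annealed μ x B = 0 := fun x => by rw [annealed_tinv μ x hB hT, h]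
  refine ⟨h1, ?_⟩
  rw [ae_all_iff]
  intro x
  have h2 := h1 x
  rw [annealed, lintegral_eq_zero_iff (measurable_quenched_apply x hB)] at h2
  exact h2

lemma hasProb_one {B : Set (ℕ → Site d)} (hB : MeasurableSet B) (hT : TInv B)
    (h : annealed μ 0 B = 1) : HasProb μ B 1 := by
  have hTc : TInv Bᶜ := fun z X => not_congr (hT z X)
  have h0 : annealed μ 0 Bᶜ = 0 := by
    rw [← annM_apply μ 0 hB.compl]
    rw [← annM_apply μ 0 hB] at h
    exact (prob_compl_eq_zero_iff hB).2 h
  have h1 := (hasProb_zero μ hB.compl hTc h0).2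
  refine ⟨fun x => by rw [annealed_tinv μ x hB hT, h], ?_⟩
  filter_upwards [h1] with ω hω x
  exact (prob_compl_eq_zero_iff hB).1 (hω x)

/-- Given escape in the direction of `h`, every invariant event has probability zero or one. -/
theorem zero_one_givenR (h : Site d →+ ℝ) {B : Set (ℕ → Site d)} (hB : MeasurableSet B)
    (hT : TInv B) (hS : SInv B) (hpos : annealed μ 0 (EscR h ∩ B) ≠ 0) :
    annealed μ 0 (EscR h \ B) = 0 := by
  set A : Set (ℕ → Site d) := UpR h ∩ B with hA
  have hAm : MeasurableSet A := (measurableSet_upR h).inter hB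
  have hAT : TInv A := tinv_inter (tinv_upR h) hT
  have hp : annealed μ 0 A ≠ 0 := upR_pos μ h hB hT hS hpos
  have hp' : (annealed μ 0 A).toReal ≠ 0 := by
    rw [← annM_apply μ 0 hAm] at hp ⊢
    exact (ENNReal.toReal_ne_zero).2 ⟨hp, measure_ne_top _ _⟩
  have hG : MeasurableSet (EscR h \ B) := (measurableSet_escR h).diff hB
  refine null_of_tendstoR μ h hG (fun X hX k => ?_) hp' ?_
  · obtain ⟨n, hn⟩ := (tendsto_atTop_atTop.1 hX.1) (k : ℝ)
    exact ⟨n, hn n le_rfl⟩
  · have h1 := (fp_limitR μ h hAm hAT (fun X hX => hX.1.1) hG).neg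
    rw [neg_zero] at h1
    refine h1.congr fun k => ?_
    have e : RAR h A k ∩ (EscR h \ B) = ∅ := by
      ext X
      simp only [Set.mem_inter_iff, Set.mem_empty_iff_false, iff_false]
      rintro ⟨hX, hX2⟩
      simp only [RAR, Set.mem_iUnion] at hX
      obtain ⟨l, _, _, hX3⟩ := hX
      exact hX2.2 ((sinv_tl hS l.length X).1 hX3.2)
    rw [e]
    simp only [measure_empty, ENNReal.toReal_zero, zero_sub, neg_neg]

lemma meas_escape (v : Fin d → ℝ) : MeasurableSet (Escape v : Set (ℕ → Site d)) :=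
  measurableSet_escR (innerHom v)

lemma tinv_escape (v : Fin d → ℝ) : TInv (Escape v : Set (ℕ → Site d)) := tinv_escR (innerHom v)

lemma measurable_inner (n : ℕ) (v : Fin d → ℝ) :
    Measurable (fun X : ℕ → Site d => Vale.Agent.P147.inner (X n) v) :=
  (measurable_of_countable (fun x : Site d => Vale.Agent.P147.inner x v)).comp (measurable_pi_apply n)

lemma oscillate_eq (v : Fin d → ℝ) : (Oscillate v : Set (ℕ → Site d)) =
    (⋂ k : ℕ, ⋂ N : ℕ, ⋃ n : ℕ, {X | N ≤ n ∧ (k : ℝ) ≤ Vale.Agent.P147.inner (X n) v}) ∩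
    ⋂ k : ℕ, ⋂ N : ℕ, ⋃ n : ℕ, {X | N ≤ n ∧ Vale.Agent.P147.inner (X n) v ≤ -(k : ℝ)} := by
  ext X
  simp only [Oscillate, Set.mem_ofPred_eq, Set.mem_inter_iff, Set.mem_iInter, Set.mem_iUnion,
    frequently_atTop]
  refine and_congr ⟨fun H k N => H k N, fun H K N => ?_⟩ ⟨fun H k N => H (-k) N, fun H K N => ?_⟩
  · obtain ⟨k, hk⟩ := exists_nat_ge K
    obtain ⟨n, h1, h2⟩ := H k N
    exact ⟨n, h1, hk.trans h2⟩
  · obtain ⟨k, hk⟩ := exists_nat_ge (-K)
    obtain ⟨n, h1, h2⟩ := H k N
    exact ⟨n, h1, by linarith⟩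

lemma meas_oscillate (v : Fin d → ℝ) : MeasurableSet (Oscillate v : Set (ℕ → Site d)) := by
  rw [oscillate_eq]
  refine MeasurableSet.inter ?_ ?_
  · refine MeasurableSet.iInter fun k => MeasurableSet.iInter fun N => MeasurableSet.iUnion
      fun n => ?_
    by_cases h : N ≤ n
    · simp only [h, true_and]
      exact measurableSet_le measurable_const (measurable_inner n v)
    · simp only [h, false_and]
      exact MeasurableSet.empty
  · refine MeasurableSet.iInter fun k => MeasurableSet.iInter fun N => MeasurableSet.iUnion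
      fun n => ?_
    by_cases h : N ≤ n
    · simp only [h, true_and]
      exact measurableSet_le (measurable_inner n v) measurable_const
    · simp only [h, false_and]
      exact MeasurableSet.empty

lemma inner_add_left (x z : Site d) (v : Fin d → ℝ) : Vale.Agent.P147.inner (x + z) v = Vale.Agent.P147.inner x v + Vale.Agent.P147.inner z v :=
  map_add (innerHom v) x z

lemma tinv_oscillate (v : Fin d → ℝ) : TInv (Oscillate v : Set (ℕ → Site d)) := by
  have key : ∀ (z : Site d) (X : ℕ → Site d), X ∈ Oscillate v → tr z X ∈ Oscillate v := by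
    intro z X hX
    refine ⟨fun K => ?_, fun K => ?_⟩
    · refine (hX.1 (K - Vale.Agent.P147.inner z v)).mono fun n hn => ?_
      rw [tr, inner_add_left]
      linarith
    · refine (hX.2 (K - Vale.Agent.P147.inner z v)).mono fun n hn => ?_
      rw [tr, inner_add_left]
      linarith
  intro z X
  refine ⟨fun hX => ?_, key z X⟩
  have := key (-z) _ hX
  have e : tr (-z) (tr z X) = X := by
    funext n; simp [tr]
  rwa [e] at this

lemma inner_neg_right (x : Site d) (v : Fin d → ℝ) : Vale.Agent.P147.inner x (-v) = -Vale.Agent.P147.inner x v := by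
  simp [Vale.Agent.P147.inner, Finset.sum_neg_distrib]

/-- A path that is not one of the three kinds is bounded on one side and does not escape on the
other side. -/
lemma cover (v : Fin d → ℝ) : (Escape v ∪ Escape (-v) ∪ Oscillate v : Set (ℕ → Site d))ᶜ ⊆
    ({X : ℕ → Site d | ∃ k : ℕ, ∀ n, innerHom v (X n) ≤ k} \ EscR (-innerHom v)) ∪
    ({X : ℕ → Site d | ∃ k : ℕ, ∀ n, (-innerHom v) (X n) ≤ k} \ EscR (- -innerHom v)) := by
  have hbd : ∀ f : ℕ → ℝ, ¬ (∀ K : ℝ, ∃ᶠ n in atTop, K ≤ f n) → ∃ k : ℕ, ∀ n, f n ≤ k := by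
    intro f hf
    push Not at hf
    obtain ⟨K, hK⟩ := hf
    rw [eventually_atTop] at hK
    obtain ⟨N, hN⟩ := hK
    obtain ⟨M, hM⟩ := ((Finset.range N).image f).exists_le
    obtain ⟨k, hk⟩ := exists_nat_ge (max K M)
    refine ⟨k, fun n => ?_⟩
    rcases lt_or_ge n N with h | h
    · exact ((hM _ (Finset.mem_image_of_mem f (Finset.mem_range.2 h))).trans
        (le_max_right _ _)).trans hk
    · exact ((hN n h).le.trans (le_max_left _ _)).trans hk
  intro X hX
  rw [Set.mem_compl_iff, Set.mem_union, Set.mem_union, not_or, not_or] at hX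
  obtain ⟨⟨h1, h2⟩, h3⟩ := hX
  rw [Oscillate, Set.mem_ofPred_eq, not_and_or] at h3
  rcases h3 with h3 | h3
  · left
    refine ⟨hbd _ h3, ?_⟩
    rw [← innerHom_neg]
    exact h2
  · right
    refine ⟨hbd _ fun H => h3 fun K => ?_, ?_⟩
    · refine (H (-K)).mono fun n hn => ?_
      have : -K ≤ -Vale.Agent.P147.inner (X n) v := hn
      linarith
    · rw [neg_neg]
      exact h1

/-- Almost surely the walk escapes in the direction `v`, or in the opposite direction, or
oscillates. -/
theorem union_one (hμ : Elliptic μ) {v : Fin d → ℝ} (hv : v ≠ 0) :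
    annealed μ 0 (Escape v ∪ Escape (-v) ∪ Oscillate v)ᶜ = 0 := by
  obtain ⟨u, hu⟩ := innerHom_step hv
  obtain ⟨u', hu'⟩ := innerHom_step (neg_ne_zero.2 hv)
  rw [innerHom_neg] at hu'
  have h1 := esc_of_boundedR μ hμ hu
  have h2 := esc_of_boundedR μ hμ hu'
  have hm1 := (kal_meas_bddR (innerHom v)).diff (measurableSet_escR (-innerHom v))
  have hm2 := (kal_meas_bddR (-innerHom v)).diff (measurableSet_escR (- -innerHom v))
  refine le_antisymm ?_ zero_le
  calc annealed μ 0 (Escape v ∪ Escape (-v) ∪ Oscillate v)ᶜ ≤ annealed μ 0 _ :=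
        annealed_mono μ 0 (cover v)
    _ = annM μ 0 _ := (annM_apply μ 0 (hm1.union hm2)).symm
    _ = 0 := by
        refine measure_union_null ?_ ?_
        · rw [annM_apply μ 0 hm1]; exact h1
        · rw [annM_apply μ 0 hm2]; exact h2

lemma disj_escape (v : Fin d → ℝ) : (Escape v ∩ Escape (-v) : Set (ℕ → Site d)) = ∅ := by
  ext X
  simp only [Set.mem_inter_iff, Set.mem_empty_iff_false, iff_false]
  rintro ⟨h1, h2⟩
  have h3 := (tendsto_atTop.1 h1 1).and (tendsto_atTop.1 h2 1)
  obtain ⟨n, h4, h5⟩ := h3.exists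
  rw [inner_neg_right] at h5
  linarith

lemma disj_osc (v : Fin d → ℝ) : (Escape v ∩ Oscillate v : Set (ℕ → Site d)) = ∅ := by
  ext X
  simp only [Set.mem_inter_iff, Set.mem_empty_iff_false, iff_false]
  rintro ⟨h1, h2⟩
  obtain ⟨n, h4, h5⟩ := ((h2.2 0).and_eventually (tendsto_atTop.1 h1 1)).exists
  linarith

lemma disj_osc' (v : Fin d → ℝ) : (Escape (-v) ∩ Oscillate v : Set (ℕ → Site d)) = ∅ := by
  ext X
  simp only [Set.mem_inter_iff, Set.mem_empty_iff_false, iff_false]
  rintro ⟨h1, h2⟩
  obtain ⟨n, h4, h5⟩ := ((h2.1 0).and_eventually (tendsto_atTop.1 h1 1)).exists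
  rw [inner_neg_right] at h5
  linarith

/-- Disjoint events: if one has probability one then the other has probability zero. -/
lemma zero_of_one {A B : Set (ℕ → Site d)} (hA : MeasurableSet A) (hB : MeasurableSet B)
    (hAB : A ∩ B = ∅) (h : annealed μ 0 A = 1) : annealed μ 0 B = 0 := by
  rw [← annM_apply μ 0 hA] at h
  rw [← annM_apply μ 0 hB]
  have h1 : annM μ 0 Aᶜ = 0 := (prob_compl_eq_zero_iff hA).2 h
  refine measure_mono_null (fun X hX => ?_) h1
  intro hXA
  have : X ∈ A ∩ B := ⟨hXA, hX⟩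
  rw [hAB] at this
  exact this

theorem trichotomy (hd : 2 ≤ d) (hμ : Elliptic μ) {v : Fin d → ℝ} (hv : v ≠ 0) :
    (HasProb μ (Escape v) 1 ∧ HasProb μ (Escape (-v)) 0 ∧ HasProb μ (Oscillate v) 0) ∨
    (HasProb μ (Escape v) 0 ∧ HasProb μ (Escape (-v)) 1 ∧ HasProb μ (Oscillate v) 0) ∨
    (HasProb μ (Escape v) 0 ∧ HasProb μ (Escape (-v)) 0 ∧ HasProb μ (Oscillate v) 1) := by
  have m1 := meas_escape (d := d) v
  have m2 := meas_escape (d := d) (-v)
  have m3 := meas_oscillate (d := d) v
  have t1 := tinv_escape (d := d) v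
  have t2 := tinv_escape (d := d) (-v)
  have t3 := tinv_oscillate (d := d) v
  have e3 : (Escape (-v) ∩ Escape v : Set (ℕ → Site d)) = ∅ := by
    rw [Set.inter_comm]; exact disj_escape v
  rcases Vale.Agent.P147.Z.zero_one μ hd hμ v with h1 | h1
  · rcases Vale.Agent.P147.Z.zero_one μ hd hμ (-v) with h2 | h2
    · right; right
      refine ⟨hasProb_zero μ m1 t1 h1, hasProb_zero μ m2 t2 h2, hasProb_one μ m3 t3 ?_⟩
      have h3 := union_one μ hμ hv
      have mU : MeasurableSet (Escape v ∪ Escape (-v) ∪ Oscillate v : Set (ℕ → Site d)) :=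
        (m1.union m2).union m3
      rw [← annM_apply μ 0 mU.compl] at h3
      rw [← annM_apply μ 0 m1] at h1
      rw [← annM_apply μ 0 m2] at h2
      rw [← annM_apply μ 0 m3, ← prob_compl_eq_zero_iff m3]
      refine measure_mono_null (fun X hX => ?_)
        (measure_union_null (measure_union_null h1 h2) h3)
      by_cases hX' : X ∈ (Escape v ∪ Escape (-v) ∪ Oscillate v : Set (ℕ → Site d))
      · rcases hX' with hX' | hX'
        · exact Or.inl hX'
        · exact absurd hX' hX
      · exact Or.inr hX'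
    · right; left
      exact ⟨hasProb_zero μ m1 t1 h1, hasProb_one μ m2 t2 h2,
        hasProb_zero μ m3 t3 (zero_of_one μ m2 m3 (disj_osc' v) h2)⟩
  · left
    exact ⟨hasProb_one μ m1 t1 h1, hasProb_zero μ m2 t2 (zero_of_one μ m1 m2 (disj_escape v) h1),
      hasProb_zero μ m3 t3 (zero_of_one μ m1 m3 (disj_osc v) h1)⟩

theorem cone {v w : Fin d → ℝ} (hv : annealed μ 0 (Escape v) = 1)
    (hw : annealed μ 0 (Escape w) = 1) {s t : ℝ} (hs : 0 ≤ s) (ht : 0 ≤ t) (hst : 0 < s + t) :
    annealed μ 0 (Escape (s • v + t • w)) = 1 := by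
  have m1 := meas_escape (d := d) v
  have m2 := meas_escape (d := d) w
  have m3 := meas_escape (d := d) (s • v + t • w)
  rw [← annM_apply μ 0 m1, ← prob_compl_eq_zero_iff m1] at hv
  rw [← annM_apply μ 0 m2, ← prob_compl_eq_zero_iff m2] at hw
  rw [← annM_apply μ 0 m3, ← prob_compl_eq_zero_iff m3]
  refine measure_mono_null (fun X hX => ?_) (measure_union_null hv hw)
  by_contra hcon
  rw [Set.mem_union, not_or, Set.mem_compl_iff, not_not, Set.mem_compl_iff, not_not] at hcon
  obtain ⟨h1, h2⟩ := hcon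
  apply hX
  have e : ∀ x : Site d, Vale.Agent.P147.inner x (s • v + t • w) =
      s * Vale.Agent.P147.inner x v + t * Vale.Agent.P147.inner x w := by
    intro x
    simp only [Vale.Agent.P147.inner, Pi.add_apply, Pi.smul_apply, smul_eq_mul, Finset.mul_sum,
      ← Finset.sum_add_distrib]
    exact Finset.sum_congr rfl fun i _ => by ring
  rw [Escape, Set.mem_ofPred_eq]
  simp only [e]
  rw [tendsto_atTop]
  intro b
  set c := max 0 (b / (s + t)) with hc
  have hc0 : 0 ≤ c := le_max_left _ _
  have hcb : b ≤ (s + t) * c := by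
    calc b = (s + t) * (b / (s + t)) := by field_simp
      _ ≤ (s + t) * c := mul_le_mul_of_nonneg_left (le_max_right _ _) hst.le
  filter_upwards [tendsto_atTop.1 h1 c, tendsto_atTop.1 h2 c] with n h3 h4
  have h5 := mul_le_mul_of_nonneg_left h3 hs
  have h6 := mul_le_mul_of_nonneg_left h4 ht
  linarith

/-- Invariant events are trivial when the walk escapes in some direction. -/
theorem trivial_of_escape (hd : 2 ≤ d) (hμ : Elliptic μ) {v : Fin d → ℝ}
    (hv : annealed μ 0 (Escape v) ≠ 0) {B : Set (ℕ → Site d)} (hB : MeasurableSet B)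
    (hT : TInv B) (hS : SInv B) : HasProb μ B 0 ∨ HasProb μ B 1 := by
  have m1 := meas_escape (d := d) v
  have h1 := (Vale.Agent.P147.Z.zero_one μ hd hμ v).resolve_left hv
  rw [← annM_apply μ 0 m1, ← prob_compl_eq_zero_iff m1] at h1
  by_cases hpos : annealed μ 0 (EscR (innerHom v) ∩ B) = 0
  · left
    refine hasProb_zero μ hB hT ?_
    have m2 : MeasurableSet (EscR (innerHom v) ∩ B) := (measurableSet_escR _).inter hB
    rw [← annM_apply μ 0 m2] at hpos
    rw [← annM_apply μ 0 hB]
    refine measure_mono_null (fun X hX => ?_) (measure_union_null hpos h1)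
    by_cases hX' : X ∈ (Escape v : Set (ℕ → Site d))
    · exact Or.inl ⟨hX', hX⟩
    · exact Or.inr hX'
  · right
    refine hasProb_one μ hB hT ?_
    have h2 := zero_one_givenR μ (innerHom v) hB hT hS hpos
    have m2 : MeasurableSet (EscR (innerHom v) \ B) := (measurableSet_escR _).diff hB
    rw [← annM_apply μ 0 m2] at h2
    rw [← annM_apply μ 0 hB, ← prob_compl_eq_zero_iff hB]
    refine measure_mono_null (fun X hX => ?_) (measure_union_null h2 h1)
    by_cases hX' : X ∈ (Escape v : Set (ℕ → Site d))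
    · exact Or.inl ⟨hX', hX⟩
    · exact Or.inr hX'

lemma measurableSet_speed (w : Fin d → ℝ) : MeasurableSet (Speed w : Set (ℕ → Site d)) := by
  refine measurableSet_tendsto (nhds w) fun n => ?_
  refine measurable_pi_lambda _ fun i => ?_
  have h1 : Measurable (fun X : ℕ → Site d => (X n i : ℝ)) :=
    (measurable_of_countable (fun x : Site d => (x i : ℝ))).comp (measurable_pi_apply n)
  exact h1.div_const _

lemma sinv_speed (w : Fin d → ℝ) : SInv (Speed w : Set (ℕ → Site d)) := by
  intro X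
  simp only [Speed, Set.mem_ofPred_eq, tendsto_pi_nhds]
  refine forall_congr' fun i => ?_
  have h1 : Tendsto (fun n : ℕ => ((n : ℝ) + 1) / n) atTop (nhds 1) := by
    have h2 : Tendsto (fun n : ℕ => 1 + 1 / (n : ℝ)) atTop (nhds (1 + 0)) :=
      tendsto_const_nhds.add tendsto_one_div_atTop_nhds_zero_nat
    rw [add_zero] at h2
    refine h2.congr' ?_
    filter_upwards [eventually_ge_atTop 1] with n hn
    have : (n : ℝ) ≠ 0 := by
      have : (0 : ℝ) < n := by exact_mod_cast hn
      exact this.ne'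
    field_simp
  have h1' : Tendsto (fun n : ℕ => (n : ℝ) / (n + 1)) atTop (nhds 1) := by
    have := h1.inv₀ one_ne_zero
    rw [inv_one] at this
    exact this.congr fun n => inv_div _ _
  have key : Tendsto (fun n : ℕ => (X (n + 1) i : ℝ) / ((n + 1 : ℕ) : ℝ)) atTop (nhds (w i)) ↔
      Tendsto (fun n : ℕ => (X n i : ℝ) / (n : ℝ)) atTop (nhds (w i)) :=
    tendsto_add_atTop_iff_nat (f := fun n : ℕ => (X n i : ℝ) / (n : ℝ)) 1
  rw [← key]
  constructor
  · intro hX
    have := hX.mul h1'
    rw [mul_one] at this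
    refine this.congr' ?_
    filter_upwards [eventually_ge_atTop 1] with n hn
    have hn0 : (n : ℝ) ≠ 0 := by
      have : (0 : ℝ) < n := by exact_mod_cast hn
      exact this.ne'
    have hn1 : (n : ℝ) + 1 ≠ 0 := by positivity
    simp only [tl]
    push_cast
    field_simp
  · intro hX
    have := hX.mul h1
    rw [mul_one] at this
    refine this.congr' ?_
    filter_upwards [eventually_ge_atTop 1] with n hn
    have hn0 : (n : ℝ) ≠ 0 := by
      have : (0 : ℝ) < n := by exact_mod_cast hn
      exact this.ne'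
    have hn1 : (n : ℝ) + 1 ≠ 0 := by positivity
    simp only [tl]
    push_cast
    field_simp

lemma tinv_speed (w : Fin d → ℝ) : TInv (Speed w : Set (ℕ → Site d)) := by
  have key : ∀ (z : Site d) (X : ℕ → Site d), X ∈ Speed w → tr z X ∈ Speed w := by
    intro z X hX
    simp only [Speed, Set.mem_ofPred_eq, tendsto_pi_nhds] at hX ⊢
    intro i
    have h1 : Tendsto (fun n : ℕ => (z i : ℝ) / n) atTop (nhds 0) :=
      tendsto_const_div_atTop_nhds_zero_nat _
    have h2 := (hX i).add h1
    rw [add_zero] at h2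
    refine h2.congr fun n => ?_
    simp only [tr, Pi.add_apply]
    push_cast
    ring
  intro z X
  refine ⟨fun hX => ?_, key z X⟩
  have := key (-z) _ hX
  have e : tr (-z) (tr z X) = X := by
    funext n; simp [tr]
  rwa [e] at this

/-- A walk with a nonzero velocity escapes in the direction of its velocity. -/
lemma speed_subset {w : Fin d → ℝ} (hw : w ≠ 0) :
    (Speed w : Set (ℕ → Site d)) ⊆ Escape w := by
  intro X hX
  have hq : 0 < ∑ i, w i * w i := by
    obtain ⟨i, hi⟩ : ∃ i, w i ≠ 0 := by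
      by_contra hcon
      push Not at hcon
      exact hw (funext hcon)
    exact Finset.sum_pos' (fun j _ => mul_self_nonneg _)
      ⟨i, Finset.mem_univ i, mul_self_pos.2 hi⟩
  set q := ∑ i, w i * w i with hqd
  have h1 : Tendsto (fun n : ℕ => ∑ i, ((X n i : ℝ) / n) * w i) atTop (nhds q) := by
    refine tendsto_finsetSum _ fun i _ => Tendsto.mul_const _ ?_
    exact (tendsto_pi_nhds.1 hX) i
  have h2 : ∀ᶠ n : ℕ in atTop, q / 2 < ∑ i, ((X n i : ℝ) / n) * w i :=
    h1.eventually_const_lt (by linarith only [hq])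
  have h3 : ∀ᶠ n : ℕ in atTop, q / 2 * n ≤ Vale.Agent.P147.inner (X n) w := by
    filter_upwards [h2, eventually_ge_atTop 1] with n hn hn1
    have hn0 : (0 : ℝ) < n := by exact_mod_cast hn1
    have e : Vale.Agent.P147.inner (X n) w = (∑ i, ((X n i : ℝ) / n) * w i) * n := by
      rw [Vale.Agent.P147.inner, Finset.sum_mul]
      refine Finset.sum_congr rfl fun i _ => ?_
      field_simp
    rw [e]
    gcongr
  refine tendsto_atTop_mono' atTop h3 ?_
  exact Tendsto.const_mul_atTop (by positivity) tendsto_natCast_atTop_atTop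

/-- The velocity zero-one law. -/
theorem velocity (hd : 2 ≤ d) (hμ : Elliptic μ) {w : Fin d → ℝ} (hw : w ≠ 0) :
    HasProb μ (Speed w) 0 ∨ HasProb μ (Speed w) 1 := by
  by_cases h : annealed μ 0 (Escape w) = 0
  · left
    refine hasProb_zero μ (measurableSet_speed w) (tinv_speed w) ?_
    exact le_antisymm ((annealed_mono μ 0 (speed_subset hw)).trans h.le) zero_le
  · exact trivial_of_escape μ hd hμ h (measurableSet_speed w) (tinv_speed w) (sinv_speed w)

end

/-- **Trichotomy, cone of escape directions, triviality of invariant events and velocity zero-one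
law** for random walk in an iid elliptic random environment, in every dimension at least two. -/
theorem result (d : ℕ) (hd : 2 ≤ d) (μ : Measure (Row d)) [IsProbabilityMeasure μ]
    (hμ : Elliptic μ) :
    -- (1) the directional zero-one law
    (∀ v : Fin d → ℝ, annealed μ 0 (Escape v) = 0 ∨ annealed μ 0 (Escape v) = 1) ∧
    -- (2) the trichotomy, annealed and quenched, from every starting point
    (∀ v : Fin d → ℝ, v ≠ 0 →
      (HasProb μ (Escape v) 1 ∧ HasProb μ (Escape (-v)) 0 ∧ HasProb μ (Oscillate v) 0) ∨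
      (HasProb μ (Escape v) 0 ∧ HasProb μ (Escape (-v)) 1 ∧ HasProb μ (Oscillate v) 0) ∨
      (HasProb μ (Escape v) 0 ∧ HasProb μ (Escape (-v)) 0 ∧ HasProb μ (Oscillate v) 1)) ∧
    -- (3) the escape directions form a convex cone
    (∀ v w : Fin d → ℝ, annealed μ 0 (Escape v) = 1 → annealed μ 0 (Escape w) = 1 →
      ∀ s t : ℝ, 0 ≤ s → 0 ≤ t → 0 < s + t → annealed μ 0 (Escape (s • v + t • w)) = 1) ∧
    -- (4) if some direction has escape with positive probability, then all invariant events of
    -- the path are trivial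
    ((∃ v : Fin d → ℝ, annealed μ 0 (Escape v) ≠ 0) →
      ∀ B : Set (ℕ → Site d), MeasurableSet B →
        (∀ X : ℕ → Site d, (fun n => X (n + 1)) ∈ B ↔ X ∈ B) →
        (∀ (z : Site d) (X : ℕ → Site d), (fun n => X n + z) ∈ B ↔ X ∈ B) →
        HasProb μ B 0 ∨ HasProb μ B 1) ∧
    -- (5) every nonzero limiting velocity is deterministic
    (∀ w : Fin d → ℝ, w ≠ 0 → HasProb μ (Speed w) 0 ∨ HasProb μ (Speed w) 1) := by
  refine ⟨fun v => Z.zero_one μ hd hμ v, fun v hv => trichotomy μ hd hμ hv, fun v w hv hw s t hs ht hst =>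
    cone μ hv hw hs ht hst, fun hex B hB hS hT => ?_, fun w hw => velocity μ hd hμ hw⟩
  obtain ⟨v, hv⟩ := hex
  exact trivial_of_escape μ hd hμ hv hB (fun z X => hT z X) (fun X => hS X)

end Vale.Agent.Results.P147.Trichotomy
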